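import Vale.Agent.P211.H210.Close

set_option linter.all false

/-! P211 (helper555): Schur's lemma and the Ricci flat case in the formal calculus. -/

namespace Vale.Agent.P211.H555

open Topology Filter Vale.Agent.P211 Vale.Agent.P211.S4

variable {M 𝒪 V : Type*} [TopologicalSpace M] [CommRing 𝒪] [Algebra ℝ 𝒪]
    [AddCommGroup V] [Module 𝒪 V]

/-- `Ric = f g` with a function `f`. -/
def EinF (G : Geom M 𝒪 V) (f : M → ℝ) : Prop :=
  ∀ (p : M) (F : Fin 4 → V), G.ON p F → ∀ Y Z,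
    ∑ i, G.ev p (G.Rm (F i) Y Z (F i)) = f p * G.ev p (G.g Y Z)

theorem trace_d1F {G : Geom M 𝒪 V} {f : M → ℝ} {φ : 𝒪} (hφ : ∀ q, G.ev q φ = f q)
    (hE : EinF G f) {q : M} {F : Fin 4 → V} (h : ∀ᶠ x in 𝓝 q, G.ON x F) (U Y Z : V) :
    ∑ i, G.ev q (G.d1 G.Rm U (F i) Y Z (F i)) = G.ev q (G.D U φ) * G.ev q (G.g Y Z) := by
  have hq : G.ON q F := h.self_of_nhds
  have h1 := G.D_local q (∑ i, G.Rm (F i) Y Z (F i)) (φ * G.g Y Z) (by
      filter_upwards [h] with x hx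
      rw [map_sum, hE x F hx Y Z, map_mul, hφ]) U
  have hR := hE q F hq
  have e1 : G.D U (∑ i, G.Rm (F i) Y Z (F i)) = ∑ i, (G.d1 G.Rm U (F i) Y Z (F i)
      + G.Rm (G.nab U (F i)) Y Z (F i) + G.Rm (F i) (G.nab U Y) Z (F i)
      + G.Rm (F i) Y (G.nab U Z) (F i) + G.Rm (F i) Y Z (G.nab U (F i))) := by
    simp only [Fin.sum_univ_four, G.D_add, G.D_expand G.Rm U]
  rw [e1, G.D_mul, G.metric, map_sum] at h1
  simp only [map_add, map_mul, Finset.sum_add_distrib] at h1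
  rw [hR (G.nab U Y) Z, hR Y (G.nab U Z), hφ] at h1
  have e2 : ∑ i, G.ev q (G.Rm (G.nab U (F i)) Y Z (F i))
      + ∑ i, G.ev q (G.Rm (F i) Y Z (G.nab U (F i))) = 0 := by
    have a1 : ∀ i, G.ev q (G.Rm (G.nab U (F i)) Y Z (F i)) =
        ∑ j, G.ev q (G.g (G.nab U (F i)) (F j)) * G.ev q (G.Rm (F j) Y Z (F i)) :=
      fun i => G.exp1 G.isT4_Rm hq _ _ _ _
    have a2 : ∀ i, G.ev q (G.Rm (F i) Y Z (G.nab U (F i))) =
        ∑ j, G.ev q (G.g (G.nab U (F i)) (F j)) * G.ev q (G.Rm (F i) Y Z (F j)) :=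
      fun i => G.exp4 G.isT4_Rm hq _ _ _ _
    simp only [a1, a2]
    rw [Finset.sum_comm]
    rw [← Finset.sum_add_distrib]
    apply Finset.sum_eq_zero
    intro i _
    rw [← Finset.sum_add_distrib]
    apply Finset.sum_eq_zero
    intro j _
    rw [G.coeff_anti h U i j]; ring
  linarith only [h1, e2]

/-- Schur's lemma, infinitesimal form. -/
theorem schur_zero {G : Geom M 𝒪 V} {f : M → ℝ} {φ : 𝒪} (hφ : ∀ q, G.ev q φ = f q)
    (hE : EinF G f) {p : M} {F : Fin 4 → V} (h : ∀ᶠ x in 𝓝 p, G.ON x F) (X : V) :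
    G.ev p (G.D X φ) = 0 := by
  have hp : G.ON p F := h.self_of_nhds
  have key : ∀ m, G.ev p (G.D (F m) φ) = 0 := by
    intro m
    have hb : ∀ a b : Fin 4, G.ev p (G.d1 G.Rm (F m) (F a) (F b) (F b) (F a))
        - G.ev p (G.d1 G.Rm (F a) (F b) (F m) (F a) (F b))
        - G.ev p (G.d1 G.Rm (F b) (F a) (F m) (F b) (F a)) = 0 := by
      intro a b
      have h1 := congrArg (G.ev p) (G.d1Rm_bianchi2 (F m) (F a) (F b) (F b) (F a))
      rw [map_add, map_add, map_zero, G.d1Rm_anti34 (F a) (F b) (F m) (F b) (F a),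
        G.d1Rm_anti12 (F b) (F m) (F a) (F b) (F a), map_neg, map_neg] at h1
      linarith only [h1]
    have t1 : ∑ b, ∑ a, G.ev p (G.d1 G.Rm (F m) (F a) (F b) (F b) (F a)) =
        4 * G.ev p (G.D (F m) φ) := by
      simp only [trace_d1F hφ hE h, hp _ _]
      simp only [Fin.sum_univ_four, if_true]
      ring
    have t2 : ∑ a, ∑ b, G.ev p (G.d1 G.Rm (F a) (F b) (F m) (F a) (F b)) =
        G.ev p (G.D (F m) φ) := by
      simp only [trace_d1F hφ hE h, hp _ _]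
      simp
    have t3 : ∑ b, ∑ a, G.ev p (G.d1 G.Rm (F b) (F a) (F m) (F b) (F a)) =
        G.ev p (G.D (F m) φ) := by
      simp only [trace_d1F hφ hE h, hp _ _]
      simp
    have t0 : ∑ b, ∑ a, (G.ev p (G.d1 G.Rm (F m) (F a) (F b) (F b) (F a))
        - G.ev p (G.d1 G.Rm (F a) (F b) (F m) (F a) (F b))
        - G.ev p (G.d1 G.Rm (F b) (F a) (F m) (F b) (F a))) = 0 :=
      Finset.sum_eq_zero fun b _ => Finset.sum_eq_zero fun a _ => hb a b
    simp only [Finset.sum_sub_distrib] at t0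
    rw [t1, Finset.sum_comm (f := fun b a => G.ev p (G.d1 G.Rm (F a) (F b) (F m) (F a) (F b))),
      t2] at t0
    linarith only [t0]
  have hx := G.expand hp ⟨⟨fun Z => G.D Z φ, fun a b => G.D_add_left a b φ⟩,
    fun a b => G.D_smul_left a b φ⟩ X
  have hx' : G.ev p (G.D X φ) = ∑ i, G.ev p (G.g X (F i)) * G.ev p (G.D (F i) φ) := hx
  rw [hx']
  exact Finset.sum_eq_zero fun i _ => by rw [key, mul_zero]

/-- the function `f` with `Ric = f g` is smooth. -/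
theorem smooth_of {G : Geo2 M 𝒪 V} {f : M → ℝ} (hE : EinF G.toGeom f) :
    ∃ φ : 𝒪, ∀ q, G.ev q φ = f q := by
  refine G.glue f fun p => ?_
  obtain ⟨F₀, hF₀⟩ := G.frame p
  obtain ⟨F, hF, -, -⟩ := G.sync p F₀ hF₀
  refine ⟨∑ i, G.Rm (F i) (F 0) (F 0) (F i), ?_⟩
  filter_upwards [hF] with q hq
  have h1 := hE q F hq (F 0) (F 0)
  have h2 := hq 0 0
  rw [map_sum]
  rw [h1, h2]
  simp

/-- **Schur's lemma.** -/
theorem schur [Nonempty M] {G : Geo2 M 𝒪 V} {f : M → ℝ} (hE : EinF G.toGeom f) :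
    ∃ c : ℝ, ∀ q, f q = c := by
  obtain ⟨φ, hφ⟩ := smooth_of hE
  obtain ⟨p₀⟩ := ‹Nonempty M›
  refine ⟨f p₀, fun q => ?_⟩
  set ρ : 𝒪 := (φ - algebraMap ℝ 𝒪 (f p₀)) * (φ - algebraMap ℝ 𝒪 (f p₀)) with hρ
  have hev : ∀ x, G.ev x ρ = (f x - f p₀) ^ 2 := by
    intro x
    rw [hρ, map_mul, map_sub, hφ]
    simp only [AlgHom.commutes, Algebra.algebraMap_self, RingHom.id_apply]
    ring
  have h := G.gronwall (fun x => (f x - f p₀) ^ 2) 0 (fun x => sq_nonneg _) (fun p => ?_) p₀ q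
    (by simp)
  · have h1 : (f q - f p₀) ^ 2 = 0 := h
    have h2 := pow_eq_zero_iff (two_ne_zero) |>.1 h1
    linarith
  · refine ⟨ρ, 0, Filter.Eventually.of_forall fun x => ?_, map_zero _, fun X => ?_⟩
    · rw [hev, sub_self, abs_zero, map_zero]
    · obtain ⟨F₀, hF₀⟩ := G.frame p
      obtain ⟨F, hF, -, -⟩ := G.sync p F₀ hF₀
      have hz := schur_zero (G := G.toGeom) hφ hE hF X
      have e : G.D X ρ = G.D X φ * (φ - algebraMap ℝ 𝒪 (f p₀)) +
          (φ - algebraMap ℝ 𝒪 (f p₀)) * G.D X φ := by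
        rw [hρ, G.D_mul]
        have : G.D X (φ - algebraMap ℝ 𝒪 (f p₀)) = G.D X φ := by
          rw [G.D_sub, G.D_const, sub_zero]
        rw [this]
      rw [e, map_add, map_mul, map_mul, hz]
      simp

/-- the sign of the Einstein constant -/
theorem const_nonneg {G : Geo2 M 𝒪 V} {lam : ℝ} [Nonempty M] (hE : G.Einstein lam)
    (hK : G.SecGe 0) : 0 ≤ lam := by
  obtain ⟨p⟩ := ‹Nonempty M›
  obtain ⟨F, hF⟩ := G.frame p
  have h1 := hE p F hF (F 0) (F 0)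
  have h2 : G.ev p (G.g (F 0) (F 0)) = 1 := by simpa using hF 0 0
  rw [h2, mul_one] at h1
  rw [← h1]
  refine Finset.sum_nonneg fun i _ => ?_
  have := hK p (F i) (F 0)
  simpa using this

/-- Ricci flat and `K ≥ 0` imply flat. -/
theorem flat {G : Geo2 M 𝒪 V} (hE : G.Einstein 0) (hK : G.SecGe 0) (p : M) (X Y Z W : V) :
    G.ev p (G.Rm X Y Z W) = 0 := by
  have hK' : ∀ X Y : V, 0 ≤ G.ev p (G.Rm X Y Y X) := by
    intro X Y
    have := hK p X Y
    simpa using this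
  obtain ⟨F, hF⟩ := G.frame p
  have h0 : ∀ (Y : V) (i : Fin 4), G.ev p (G.Rm (F i) Y Y (F i)) = 0 := by
    intro Y i
    have h1 := hE p F hF Y Y
    rw [zero_mul] at h1
    exact (Finset.sum_eq_zero_iff_of_nonneg fun j _ => hK' (F j) Y).1 h1 i (Finset.mem_univ i)
  have hs : ∀ X Y Z : V, G.Rm X Y Y Z = G.Rm Z Y Y X := by
    intro X Y Z
    rw [G.Rm_pair X Y Y Z, G.Rm_anti12 Y Z X Y, G.Rm_anti34 Z Y X Y]
    ring
  have hoff : ∀ (Y : V) (i j : Fin 4), G.ev p (G.Rm (F i) Y Y (F j)) = 0 := by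
    intro Y i j
    have h1 : ∀ t : ℝ, 0 ≤ 2 * G.ev p (G.Rm (F i) Y Y (F j)) * t + 0 * t ^ 2 := by
      intro t
      have h2 := hK' (F i + algebraMap ℝ 𝒪 t • F j) Y
      rw [G.isT4_Rm.add1, G.isT4_Rm.add4, G.isT4_Rm.add4, G.isT4_Rm.smul1, G.isT4_Rm.smul1,
        G.isT4_Rm.smul4, G.isT4_Rm.smul4, hs (F j) Y (F i)] at h2
      simp only [map_add, map_mul, AlgHom.commutes, Algebra.algebraMap_self, RingHom.id_apply,
        h0] at h2
      linarith only [h2]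
    have h3 := h1 1
    have h4 := h1 (-1)
    linarith only [h3, h4]
  have hdiag : ∀ X Y : V, G.ev p (G.Rm X Y Y X) = 0 := by
    intro X Y
    rw [G.exp1 G.isT4_Rm hF]
    refine Finset.sum_eq_zero fun i _ => ?_
    rw [G.exp4 G.isT4_Rm hF]
    have : ∑ j, G.ev p (G.g X (F j)) * G.ev p (G.Rm (F i) Y Y (F j)) = 0 :=
      Finset.sum_eq_zero fun j _ => by rw [hoff, mul_zero]
    rw [this, mul_zero]
  refine Vale.Agent.P211.H210.polar0 (fun X Y Z W : V => G.ev p (G.Rm X Y Z W)) ?_ ?_ ?_ ?_ ?_ hdiag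
    X Y Z W
  · intro X Y Z W
    show G.ev p _ = - G.ev p _
    rw [G.Rm_anti12, map_neg]
  · intro X Y Z W
    show G.ev p _ = - G.ev p _
    rw [G.Rm_anti34, map_neg]
  · intro X Y Z W
    show G.ev p _ = G.ev p _
    rw [G.Rm_pair]
  · intro X Y Z W
    have := congrArg (G.ev p) (G.Rm_bianchi X Y Z W)
    rw [map_add, map_add, map_zero] at this
    exact this
  · intro X X' Y Z W
    show G.ev p _ = G.ev p _ + G.ev p _
    rw [G.isT4_Rm.add1, map_add]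

end Vale.Agent.P211.H555
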