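import Vale.Agent.P211.H555.Defs
import Vale.Agent.P211.H555.Schur
import Mathlib.Analysis.InnerProductSpace.Orientation

set_option linter.all false

/-! P211 (helper555): from the notions of `H555/Defs.lean` to those of the formal calculus. -/

namespace Vale.Agent.P211.H555

open scoped Manifold ContDiff Topology
open Bundle VectorField Filter Vale.Agent.P211 Vale.Agent.P211.NN Vale.Agent.P211.S4

noncomputable section

/-! ### linear algebra -/

theorem alt_eq_or {T : Type*} [NormedAddCommGroup T] [InnerProductSpace ℝ T]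
    (hT : Module.finrank ℝ T = 4) (η : T [⋀^Fin 4]→ₗ[ℝ] ℝ) {v w : Fin 4 → T}
    (hv : Orthonormal ℝ v) (hw : Orthonormal ℝ w) : η w = η v ∨ η w = - η v := by
  have hc : Fintype.card (Fin 4) = Module.finrank ℝ T := by rw [hT]; simp
  set bv := basisOfOrthonormalOfCardEqFinrank hv hc with hbv
  set bw := basisOfOrthonormalOfCardEqFinrank hw hc with hbw
  have ev : (bv : Fin 4 → T) = v := coe_basisOfOrthonormalOfCardEqFinrank hv hc
  have ew : (bw : Fin 4 → T) = w := coe_basisOfOrthonormalOfCardEqFinrank hw hc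
  have hv' : Orthonormal ℝ bv := by rw [ev]; exact hv
  have hw' : Orthonormal ℝ bw := by rw [ew]; exact hw
  set ov := bv.toOrthonormalBasis hv' with hov
  set ow := bw.toOrthonormalBasis hw' with how
  have eov : (ov : Fin 4 → T) = v := by rw [hov, Module.Basis.coe_toOrthonormalBasis, ev]
  have eow : (ow : Fin 4 → T) = w := by rw [how, Module.Basis.coe_toOrthonormalBasis, ew]
  have h1 : η = η ov • ov.toBasis.det := by
    have := AlternatingMap.eq_smul_basis_det ov.toBasis η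
    simpa using this
  have h2 : η w = η v * ov.toBasis.det w := by
    conv_lhs => rw [h1]
    rw [eov]
    simp
  have h3 : ov.toBasis.det w = 1 ∨ ov.toBasis.det w = -1 := by
    have := ov.det_to_matrix_orthonormalBasis_real ow
    rw [eow] at this
    exact this
  rcases h3 with h3 | h3
  · left; rw [h2, h3, mul_one]
  · right; rw [h2, h3]; ring

theorem alt_ne {T : Type*} [NormedAddCommGroup T] [InnerProductSpace ℝ T]
    (hT : Module.finrank ℝ T = 4) {η : T [⋀^Fin 4]→ₗ[ℝ] ℝ} (hη : η ≠ 0) {v : Fin 4 → T}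
    (hv : Orthonormal ℝ v) : η v ≠ 0 := by
  intro h0
  apply hη
  have hc : Fintype.card (Fin 4) = Module.finrank ℝ T := by rw [hT]; simp
  set bv := basisOfOrthonormalOfCardEqFinrank hv hc with hbv
  have ev : (bv : Fin 4 → T) = v := coe_basisOfOrthonormalOfCardEqFinrank hv hc
  have h1 := AlternatingMap.eq_smul_basis_det bv η
  rw [h1, ev, h0, zero_smul]

variable {E : Type} [NormedAddCommGroup E] [NormedSpace ℝ E] [FiniteDimensional ℝ E]
  [CompleteSpace E]
  {M : Type} [TopologicalSpace M] [ChartedSpace E M] [IsManifold 𝓘(ℝ, E) ∞ M] [T2Space M]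
  [RiemannianBundle fun p : M => TangentSpace 𝓘(ℝ, E) p]
  [IsContMDiffRiemannianBundle 𝓘(ℝ, E) ∞ E fun p : M => TangentSpace 𝓘(ℝ, E) p]
  {cov : CovariantDerivative 𝓘(ℝ, E) E (TangentSpace 𝓘(ℝ, E) : M → Type)}

/-! ### the connection -/

theorem levi (hs : cov.ContMDiffCovariantDerivative ∞) (ht : cov.torsion = 0)
    (hm : CovariantDerivative.IsMetricCompatible (V := (TangentSpace 𝓘(ℝ, E) : M → Type)) cov) :
    St.IsLeviCivita cov := by
  have hd : ∀ {X : St.Fld E M}, St.Smooth X → ∀ p : M,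
      MDifferentiableAt 𝓘(ℝ, E) (𝓘(ℝ, E).prod 𝓘(ℝ, E))
        (fun p => (⟨p, X p⟩ : TangentBundle 𝓘(ℝ, E) M)) p :=
    fun hX p => (hX p).mdifferentiableAt (by simp)
  refine ⟨hs, fun X Y hX hY => ?_, fun X Y Z hX hY hZ p => ?_⟩
  · funext p
    exact (CovariantDerivative.torsion_eq_zero_iff cov).1 ht (hd hX p) (hd hY p)
  · exact hm.mvfderiv_inner_eq X (hd hY p) (hd hZ p)

/-! ### frames -/

theorem on_iff {F : Fin 4 → SmoothField E M} {p : M} :
    OrthonormalAt F p ↔ ∀ i j, St.ip (F i) (F j) p = if i = j then 1 else 0 :=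
  orthonormal_iff_ite

theorem ortho_of {F : Fin 4 → SmoothField E M} {p : M} (h : OrthonormalAt F p) :
    St.Ortho (fun i => (F i : St.Fld E M)) p :=
  fun i j => ⟨(F i).contMDiff, on_iff.1 h i j⟩

theorem of_ortho {F : Fin 4 → St.Fld E M} {p : M} (h : St.Ortho F p) :
    OrthonormalAt (fun i => mkVF (F i) (h i i).1) p :=
  on_iff.2 fun i j => (h i j).2

theorem einstein_to {lam : ℝ} (h : RicciEq cov fun _ => lam) : St.IsEinstein cov lam := by
  intro p F hF Y Z hY hZ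
  exact h p _ (of_ortho hF) (mkVF Y hY) (mkVF Z hZ)

theorem sec_to (h : SecNonneg cov) : Final.SecNonneg cov :=
  fun p X Y hX hY => h p (mkVF X hX) (mkVF Y hY)

theorem rm_eq (h : IsLC cov) (X Y Z W : SmoothField E M) :
    NN.Rm cov X Y Z W = ((lcOf h).Rm X Y Z W : SF E M) := riem_eq h X Y Z W

theorem nabRm_eq (U X Y Z W : SmoothField E M) (p : M) :
    nabRm cov U X Y Z W p = St.dRiem cov U X Y Z W p := rfl

/-! ### the orientation -/

variable [PreconnectedSpace M] (h : IsLC cov) (hE : Module.finrank ℝ E = 4)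

include h hE in
/-- local orthonormal frames -/
theorem exists_local_frame (p : M) :
    ∃ F : Fin 4 → SmoothField E M, ∀ᶠ q in 𝓝 p, OrthonormalAt F q := by
  obtain ⟨F₀, hF₀⟩ := (geo2Of h hE).frame p
  obtain ⟨F, hF, -, -⟩ := (geo2Of h hE).sync p F₀ hF₀
  refine ⟨F, ?_⟩
  filter_upwards [hF] with q hq
  exact on_iff.2 hq

/-- the norm of a form -/
def nrm (om : (p : M) → TangentSpace 𝓘(ℝ, E) p [⋀^Fin 4]→ₗ[ℝ] ℝ)
    (B : (p : M) → Fin 4 → TangentSpace 𝓘(ℝ, E) p) (p : M) : ℝ := |om p (B p)|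

/-- the unit form -/
def unitForm (om : (p : M) → TangentSpace 𝓘(ℝ, E) p [⋀^Fin 4]→ₗ[ℝ] ℝ)
    (B : (p : M) → Fin 4 → TangentSpace 𝓘(ℝ, E) p) (p : M) :
    TangentSpace 𝓘(ℝ, E) p [⋀^Fin 4]→ₗ[ℝ] ℝ := (nrm om B p)⁻¹ • om p

theorem nrm_eq {om : (p : M) → TangentSpace 𝓘(ℝ, E) p [⋀^Fin 4]→ₗ[ℝ] ℝ}
    {B : (p : M) → Fin 4 → TangentSpace 𝓘(ℝ, E) p} (hE : Module.finrank ℝ E = 4)
    (hB : ∀ p, Orthonormal ℝ (B p)) {F : Fin 4 → SmoothField E M} {q : M}
    (hF : OrthonormalAt F q) : nrm om B q = |om q fun i => F i q| := by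
  unfold nrm
  have hT : Module.finrank ℝ (TangentSpace 𝓘(ℝ, E) q) = 4 := hE
  rcases alt_eq_or hT (om q) hF (hB q) with h1 | h1
  · rw [h1]
  · rw [h1, abs_neg]

include h hE in
theorem exists_frames : ∃ B : (p : M) → Fin 4 → TangentSpace 𝓘(ℝ, E) p,
    ∀ p, Orthonormal ℝ (B p) := by
  choose F hF using exists_local_frame h hE
  exact ⟨fun p i => F p i p, fun p => (hF p).self_of_nhds⟩

include h hE in
theorem orientation_of {om : (p : M) → TangentSpace 𝓘(ℝ, E) p [⋀^Fin 4]→ₗ[ℝ] ℝ}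
    {B : (p : M) → Fin 4 → TangentSpace 𝓘(ℝ, E) p} (hB : ∀ p, Orthonormal ℝ (B p))
    (hom : NN.IsOrientation om) : Final.IsOrientation (unitForm om B) := by
  have hne : ∀ p {F : Fin 4 → SmoothField E M}, OrthonormalAt F p → (om p fun i => F i p) ≠ 0 :=
    fun p F hF => alt_ne (show Module.finrank ℝ (TangentSpace 𝓘(ℝ, E) p) = 4 from hE)
      (hom.2 p) hF
  constructor
  · intro X hX p
    obtain ⟨F, hF⟩ := exists_local_frame h hE p
    have hFp : OrthonormalAt F p := hF.self_of_nhds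
    set u : M → ℝ := fun q => om q fun i => F i q with hu
    have hus : ContMDiff 𝓘(ℝ, E) 𝓘(ℝ) ∞ u := hom.1 F
    have hup : u p ≠ 0 := hne p hFp
    set v : M → ℝ := fun q => om q fun i => X i q with hv
    have hvs : ContMDiff 𝓘(ℝ, E) 𝓘(ℝ) ∞ v := hom.1 fun i => mkVF (X i) (hX i)
    obtain ⟨s, hs⟩ : ∃ s : ℝ, ∀ᶠ q in 𝓝 p, |u q| = s * u q := by
      rcases lt_or_gt_of_ne hup with h0 | h0
      · refine ⟨-1, ?_⟩
        filter_upwards [hus.continuous.continuousAt.eventually (gt_mem_nhds h0)] with q hq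
        have hq' : u q < 0 := hq
        rw [abs_of_neg hq']; ring
      · refine ⟨1, ?_⟩
        filter_upwards [hus.continuous.continuousAt.eventually (lt_mem_nhds h0)] with q hq
        have hq' : 0 < u q := hq
        rw [abs_of_pos hq']; ring
    have hsp : s * u p ≠ 0 := by
      have := hs.self_of_nhds
      rw [← this]
      exact abs_ne_zero.2 hup
    have key : ContMDiffAt 𝓘(ℝ, E) 𝓘(ℝ) ∞ (fun q => (s * u q)⁻¹ * v q) p := by
      have h1 : ContMDiffAt 𝓘(ℝ, E) 𝓘(ℝ) ∞ (fun q => s * u q) p :=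
        contMDiffAt_const.mul (hus p)
      have h2 : ContMDiffAt 𝓘(ℝ, E) 𝓘(ℝ) ∞ (fun q => (s * u q)⁻¹) p :=
        ContMDiffAt.comp p ((contDiffAt_inv ℝ hsp).contMDiffAt) h1
      exact h2.mul (hvs p)
    refine key.congr_of_eventuallyEq ?_
    filter_upwards [hs, hF] with q h1 h2
    show ((unitForm om B q) fun i => X i q) = _
    have h3 : nrm om B q = s * u q := by rw [nrm_eq hE hB h2, ← h1]
    unfold unitForm
    rw [h3]
    rfl
  · intro p F hF
    have h1 := nrm_eq (om := om) hE hB (of_ortho hF)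
    have h2 := hne p (of_ortho hF)
    have h3 : Final.val (unitForm om B) F p = (|om p fun i => F i p|)⁻¹ * om p fun i => F i p := by
      unfold Final.val unitForm
      rw [h1]
      rfl
    have h4 : (om p fun i => F i p) ≠ 0 := h2
    rw [h3]
    rcases lt_or_gt_of_ne h4 with h0 | h0
    · right
      rw [abs_of_neg h0]
      field_simp
    · left
      rw [abs_of_pos h0]
      field_simp

theorem val_pos {om : (p : M) → TangentSpace 𝓘(ℝ, E) p [⋀^Fin 4]→ₗ[ℝ] ℝ}
    {B : (p : M) → Fin 4 → TangentSpace 𝓘(ℝ, E) p} (hE : Module.finrank ℝ E = 4)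
    (hB : ∀ p, Orthonormal ℝ (B p)) {F : Fin 4 → SmoothField E M} {p : M}
    (hF : OrthonormalAt F p) (h0 : 0 < om p fun i => F i p) :
    Final.val (unitForm om B) (fun i => (F i : St.Fld E M)) p = 1 := by
  have h1 := nrm_eq (om := om) hE hB hF
  unfold Final.val unitForm
  rw [h1, abs_of_pos h0]
  show (om p fun i => F i p)⁻¹ * (om p fun i => F i p) = 1
  exact inv_mul_cancel₀ h0.ne'

theorem val_neg {om : (p : M) → TangentSpace 𝓘(ℝ, E) p [⋀^Fin 4]→ₗ[ℝ] ℝ}
    {B : (p : M) → Fin 4 → TangentSpace 𝓘(ℝ, E) p} (hE : Module.finrank ℝ E = 4)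
    (hB : ∀ p, Orthonormal ℝ (B p)) {F : Fin 4 → SmoothField E M} {p : M}
    (hF : OrthonormalAt F p) (h0 : (om p fun i => F i p) < 0) :
    Final.val (unitForm om B) (fun i => (F i : St.Fld E M)) p = -1 := by
  have h1 := nrm_eq (om := om) hE hB hF
  unfold Final.val unitForm
  rw [h1, abs_of_neg h0]
  show (-(om p fun i => F i p))⁻¹ * (om p fun i => F i p) = -1
  have h2 := h0.ne
  field_simp

/-! ### the conclusions -/

include h in
theorem sd_quad {lam : ℝ} {F : Fin 4 → SmoothField E M} {p : M}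
    (h0 : Final.SD cov (fun i => (F i : St.Fld E M)) 0 0 p = if (0 : Fin 3) = 0 then lam / 3 else 0) :
    (NN.Rm cov (F 0) (F 1) (F 1) (F 0) p + 2 * NN.Rm cov (F 0) (F 1) (F 3) (F 2) p +
      NN.Rm cov (F 2) (F 3) (F 3) (F 2) p) / 2 = lam / 3 := by
  have h1 : NN.Rm cov (F 2) (F 3) (F 1) (F 0) p = NN.Rm cov (F 0) (F 1) (F 3) (F 2) p := by
    rw [rm_eq h, rm_eq h]
    have e : (lcOf h).Rm (F 2) (F 3) (F 1) (F 0) = (lcOf h).Rm (F 0) (F 1) (F 3) (F 2) := by
      rw [(lcOf h).Rm_pair (F 2) (F 3) (F 1) (F 0), (lcOf h).Rm_anti12 (F 1) (F 0),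
        (lcOf h).Rm_anti34 (F 0) (F 1) (F 2) (F 3), neg_neg]
    rw [e]
  have h2 : Final.SD cov (fun i => (F i : St.Fld E M)) 0 0 p =
      (NN.Rm cov (F 0) (F 1) (F 1) (F 0) p + NN.Rm cov (F 0) (F 1) (F 3) (F 2) p +
        NN.Rm cov (F 2) (F 3) (F 1) (F 0) p + NN.Rm cov (F 2) (F 3) (F 3) (F 2) p) / 2 := rfl
  rw [h2, h1, if_pos rfl] at h0
  rw [← h0]
  ring

include h hE in
theorem wplus_of {lam : ℝ} {om : (p : M) → TangentSpace 𝓘(ℝ, E) p [⋀^Fin 4]→ₗ[ℝ] ℝ}
    {B : (p : M) → Fin 4 → TangentSpace 𝓘(ℝ, E) p} (hB : ∀ p, Orthonormal ℝ (B p))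
    (hh : Final.HalfFlat cov lam (unitForm om B) 1) : WPlusZero cov lam om := by
  intro p F hF h0
  exact sd_quad h (hh p _ (ortho_of hF) (val_pos hE hB hF h0) 0 0)

include h hE in
theorem wminus_of {lam : ℝ} {om : (p : M) → TangentSpace 𝓘(ℝ, E) p [⋀^Fin 4]→ₗ[ℝ] ℝ}
    {B : (p : M) → Fin 4 → TangentSpace 𝓘(ℝ, E) p} (hB : ∀ p, Orthonormal ℝ (B p))
    (hh : Final.HalfFlat cov lam (unitForm om B) (-1)) : WPlusZero cov lam (-om) := by
  intro p F hF h0
  have h1 : (om p fun i => F i p) < 0 := by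
    have : 0 < - om p fun i => F i p := h0
    linarith
  exact sd_quad h (hh p _ (ortho_of hF) (val_neg hE hB hF h1) 0 0)

theorem product_of {lam : ℝ} (hh : Final.LocallyS2S2 cov lam) : LocallyProduct cov lam := by
  refine ⟨fun p U X Y Z W => hh.1 p U X Y Z W U.contMDiff X.contMDiff Y.contMDiff Z.contMDiff
    W.contMDiff, fun p => ?_⟩
  obtain ⟨F, hF, h1⟩ := hh.2 p
  refine ⟨fun i => mkVF (F i) (hF i i).1, of_ortho hF, fun X Y Z W => ?_⟩
  have h2 := h1 X Y Z W X.contMDiff Y.contMDiff Z.contMDiff W.contMDiff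
  have h3 : NN.Rm cov X Y Z W p = St.Riem cov X Y Z W p := rfl
  rw [h3, h2]
  have e : ∀ (i j : Fin 4) (A C : SmoothField E M),
      area (fun i => mkVF (F i) (hF i i).1) i j A C p = St.dot A C (F i) (F j) p := by
    intro i j A C
    show inner ℝ (F i p) (A p) * inner ℝ (F j p) (C p) -
      inner ℝ (F i p) (C p) * inner ℝ (F j p) (A p) =
      inner ℝ (A p) (F i p) * inner ℝ (C p) (F j p) - inner ℝ (A p) (F j p) * inner ℝ (C p) (F i p)
    rw [real_inner_comm (F i p) (A p), real_inner_comm (F j p) (C p),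
      real_inner_comm (F i p) (C p), real_inner_comm (F j p) (A p)]
    ring
  rw [e, e, e, e]

end

end Vale.Agent.P211.H555
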