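import Vale.Agent.P211.MathlibUsed
import Mathlib.Geometry.Manifold.VectorBundle.CovariantDerivative.Torsion
import Mathlib.Geometry.Manifold.VectorBundle.CovariantDerivative.Metric

/-! P211 (helper555): the notions of the statement, for a Riemannian manifold `M` modelled on `E`
and a connection `cov` on its tangent bundle. -/

namespace Vale.Agent.P211.NN

open scoped Manifold ContDiff
open Bundle VectorField

noncomputable section

/-- Vector fields (not necessarily smooth). -/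
abbrev Field (E M : Type) [NormedAddCommGroup E] [NormedSpace ℝ E] [TopologicalSpace M]
    [ChartedSpace E M] : Type :=
  (p : M) → TangentSpace 𝓘(ℝ, E) p

/-- Smooth vector fields. -/
abbrev SmoothField (E M : Type) [NormedAddCommGroup E] [NormedSpace ℝ E] [TopologicalSpace M]
    [ChartedSpace E M] [IsManifold 𝓘(ℝ, E) ∞ M] : Type :=
  Cₛ^∞⟮𝓘(ℝ, E); E, (TangentSpace 𝓘(ℝ, E) : M → Type)⟯

variable {E : Type} [NormedAddCommGroup E] [NormedSpace ℝ E]
  {M : Type} [TopologicalSpace M] [ChartedSpace E M] [IsManifold 𝓘(ℝ, E) ∞ M]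

/-- The field of alternating 4-forms `om` is smooth and vanishes nowhere. -/
def IsOrientation (om : (p : M) → TangentSpace 𝓘(ℝ, E) p [⋀^Fin 4]→ₗ[ℝ] ℝ) : Prop :=
  (∀ X : Fin 4 → SmoothField E M, ContMDiff 𝓘(ℝ, E) 𝓘(ℝ) ∞ fun p => om p fun i => X i p) ∧
    ∀ p, om p ≠ 0

variable [RiemannianBundle fun p : M => TangentSpace 𝓘(ℝ, E) p]
  (cov : CovariantDerivative 𝓘(ℝ, E) E (TangentSpace 𝓘(ℝ, E) : M → Type))

/-- The curvature `⟨∇_X ∇_Y Z - ∇_Y ∇_X Z - ∇_[X,Y] Z, W⟩` at `p`. -/
def Rm (X Y Z W : Field E M) (p : M) : ℝ :=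
  inner ℝ (cov (fun q => cov Z q (Y q)) p (X p) - cov (fun q => cov Z q (X q)) p (Y p) -
    cov Z p (mlieBracket 𝓘(ℝ, E) X Y p)) (W p)

/-- The covariant derivative `(∇_U R)(X, Y, Z, W)` of the curvature at `p`. -/
def nabRm (U X Y Z W : Field E M) (p : M) : ℝ :=
  mvfderiv 𝓘(ℝ, E) (Rm cov X Y Z W) p (U p) - Rm cov (fun q => cov X q (U q)) Y Z W p -
    Rm cov X (fun q => cov Y q (U q)) Z W p - Rm cov X Y (fun q => cov Z q (U q)) W p -
      Rm cov X Y Z (fun q => cov W q (U q)) p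

/-- The sectional curvature of every tangent plane is nonnegative. -/
def SecNonneg : Prop :=
  ∀ (p : M) (X Y : SmoothField E M), 0 ≤ Rm cov X Y Y X p

/-- The vectors `F 0 p, F 1 p, F 2 p, F 3 p` are orthonormal. -/
def OrthonormalAt (F : Fin 4 → SmoothField E M) (p : M) : Prop :=
  Orthonormal ℝ fun i => F i p

/-- `Ric = f g`, with a function `f`. -/
def RicciEq (f : M → ℝ) : Prop :=
  ∀ (p : M) (F : Fin 4 → SmoothField E M), OrthonormalAt F p → ∀ Y Z : SmoothField E M,
    ∑ i, Rm cov (F i) Y Z (F i) p = f p * inner ℝ (Y p) (Z p)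

/-- `W₊ = 0` for the orientation `om` (for an Einstein metric `Ric = lam g`): the curvature
operator maps `α` to `(lam / 3) α` for all self-dual 2-forms `α`; here `⟨Rα, α⟩ = lam / 3` is
required for all `α = (F₀ ∧ F₁ + F₂ ∧ F₃) / √2`, `F` a positive orthonormal frame, that is for all
self-dual `α` of length one. -/
def WPlusZero (lam : ℝ) (om : (p : M) → TangentSpace 𝓘(ℝ, E) p [⋀^Fin 4]→ₗ[ℝ] ℝ) : Prop :=
  ∀ (p : M) (F : Fin 4 → SmoothField E M), OrthonormalAt F p → 0 < om p (fun i => F i p) →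
    (Rm cov (F 0) (F 1) (F 1) (F 0) p + 2 * Rm cov (F 0) (F 1) (F 3) (F 2) p +
      Rm cov (F 2) (F 3) (F 3) (F 2) p) / 2 = lam / 3

/-- The area form `F i ∧ F j` on the vector fields `X, Y`. -/
def area (F : Fin 4 → SmoothField E M) (i j : Fin 4) (X Y : Field E M) (p : M) : ℝ :=
  inner ℝ (F i p) (X p) * inner ℝ (F j p) (Y p) - inner ℝ (F i p) (Y p) * inner ℝ (F j p) (X p)

/-- `g` is locally symmetric, and at every point the curvature tensor is the one of the product of
two round two-spheres of curvature `lam`. -/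
def LocallyProduct (lam : ℝ) : Prop :=
  (∀ (p : M) (U X Y Z W : SmoothField E M), nabRm cov U X Y Z W p = 0) ∧
  ∀ p : M, ∃ F : Fin 4 → SmoothField E M, OrthonormalAt F p ∧ ∀ X Y Z W : SmoothField E M,
    Rm cov X Y Z W p = lam * (area F 0 1 X Y p * area F 0 1 W Z p +
      area F 2 3 X Y p * area F 2 3 W Z p)

end

end Vale.Agent.P211.NN
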