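import Vale.Agent.P211.H555.Bridge
import Vale.Agent.P211.H210.Pos

set_option linter.all false

/-! P211 (helper555): the statements, from the core of the proof. -/

namespace Vale.Agent.P211.H555

open scoped Manifold ContDiff Topology
open Bundle VectorField Filter Vale.Agent.P211 Vale.Agent.P211.NN Vale.Agent.P211.S4

noncomputable section

variable {E : Type} [NormedAddCommGroup E] [NormedSpace ℝ E] [FiniteDimensional ℝ E]
  [CompleteSpace E]
  {M : Type} [TopologicalSpace M] [ChartedSpace E M] [IsManifold 𝓘(ℝ, E) ∞ M] [T2Space M]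
  [RiemannianBundle fun p : M => TangentSpace 𝓘(ℝ, E) p]
  [IsContMDiffRiemannianBundle 𝓘(ℝ, E) ∞ E fun p : M => TangentSpace 𝓘(ℝ, E) p]
  {cov : CovariantDerivative 𝓘(ℝ, E) E (TangentSpace 𝓘(ℝ, E) : M → Type)}

/-- Q1 -/
theorem q1 [CompactSpace M] [ConnectedSpace M] (hc : H210.Core) (hE : Module.finrank ℝ E = 4)
    (hL : St.IsLeviCivita cov) (hK : SecNonneg cov) {lam : ℝ} (hlam : 0 < lam)
    (hR : RicciEq cov fun _ => lam) {om : (p : M) → TangentSpace 𝓘(ℝ, E) p [⋀^Fin 4]→ₗ[ℝ] ℝ}
    (hom : NN.IsOrientation om) :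
    WPlusZero cov lam om ∨ WPlusZero cov lam (-om) ∨ LocallyProduct cov lam := by
  have h := isLC_of hL
  obtain ⟨B, hB⟩ := exists_frames h hE
  rcases H210.target_of_core hc hE cov hL lam hlam (einstein_to hR) (sec_to hK) (unitForm om B)
    (orientation_of h hE hB hom) with h1 | h1 | h1
  · exact Or.inl (wplus_of h hE hB h1)
  · exact Or.inr (Or.inl (wminus_of h hE hB h1))
  · exact Or.inr (Or.inr (product_of h1))

/-- the product has flat planes at every point -/
theorem not_pos {lam : ℝ} (hP : LocallyProduct cov lam) (p : M)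
    (hp : ∀ X Y : SmoothField E M, LinearIndependent ℝ ![X p, Y p] → 0 < NN.Rm cov X Y Y X p) :
    False := by
  obtain ⟨F, hF, hR⟩ := hP.2 p
  have h1 := hp (F 0) (F 2) (Pos210.linInd_of_ortho (ortho_of hF) (by decide))
  rw [hR (F 0) (F 2) (F 2) (F 0)] at h1
  have e : ∀ i j, inner ℝ (F i p) (F j p) = if i = j then (1 : ℝ) else 0 := on_iff.1 hF
  simp only [area, e] at h1
  simp at h1

theorem einF_of (h : IsLC cov) [PreconnectedSpace M] (hE : Module.finrank ℝ E = 4) {f : M → ℝ}
    (hR : RicciEq cov f) : EinF (geo2Of h hE).toGeom f := by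
  intro p F hF Y Z
  have h1 := hR p F (on_iff.2 hF) Y Z
  simp only [rm_eq h] at h1
  exact h1

/-- Schur's lemma, and the case of the constant zero -/
theorem fun_case [CompactSpace M] [ConnectedSpace M] (hE : Module.finrank ℝ E = 4)
    (hL : St.IsLeviCivita cov) (hK : SecNonneg cov) {f : M → ℝ} (hR : RicciEq cov f) :
    ∃ lam : ℝ, 0 ≤ lam ∧ (∀ p, f p = lam) ∧
      (lam = 0 → ∀ (p : M) (X Y Z W : SmoothField E M), NN.Rm cov X Y Z W p = 0) := by
  have h := isLC_of hL
  obtain ⟨lam, hlam⟩ := schur (einF_of h hE hR)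
  have hE1 : (geo2Of h hE).Einstein lam := by
    intro p F hF Y Z
    have := einF_of h hE hR p F hF Y Z
    rw [hlam] at this
    exact this
  have hS : (geo2Of h hE).SecGe 0 := H210.secGe0_of h hE (sec_to hK)
  refine ⟨lam, const_nonneg hE1 hS, hlam, fun h0 p X Y Z W => ?_⟩
  subst h0
  rw [rm_eq h]
  exact flat hE1 hS p X Y Z W

end

end Vale.Agent.P211.H555
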