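import Vale.Agent.P211.H555.Bridge
import Mathlib.Topology.Homotopy.Lifting
import Mathlib.Topology.FiberBundle.Basic
import Mathlib.AlgebraicTopology.FundamentalGroupoid.SimplyConnected

set_option linter.all false

/-! P211 (helper555): a simply connected Riemannian four-manifold is orientable. -/

namespace Vale.Agent.P211.H555

open scoped Manifold ContDiff Topology
open Bundle VectorField Filter Set Vale.Agent.P211 Vale.Agent.P211.NN Vale.Agent.P211.S4

noncomputable section

/-- the sign of a real number, as a unit of the integers -/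
def sg (x : ℝ) : ℤˣ := if 0 < x then 1 else -1

theorem sg_mul {x y : ℝ} (hx : x ≠ 0) (hy : y ≠ 0) : sg x * sg y = sg (x * y) := by
  unfold sg
  rcases lt_or_gt_of_ne hx with h1 | h1 <;> rcases lt_or_gt_of_ne hy with h2 | h2
  · rw [if_neg h1.not_gt, if_neg h2.not_gt, if_pos (mul_pos_of_neg_of_neg h1 h2)]; simp
  · rw [if_neg h1.not_gt, if_pos h2, if_neg (mul_neg_of_neg_of_pos h1 h2).not_gt]; simp
  · rw [if_pos h1, if_neg h2.not_gt, if_neg (mul_neg_of_pos_of_neg h1 h2).not_gt]; simp
  · rw [if_pos h1, if_pos h2, if_pos (mul_pos h1 h2)]; simp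

theorem sg_one : sg 1 = 1 := by unfold sg; simp

theorem sg_cast {x : ℝ} (hx : x * x = 1) : (((sg x : ℤˣ) : ℤ) : ℝ) = x := by
  unfold sg
  rcases mul_self_eq_one_iff.1 hx with h | h
  · rw [h]; simp
  · rw [h]; norm_num

variable {E : Type} [NormedAddCommGroup E] [NormedSpace ℝ E] [FiniteDimensional ℝ E]
  [CompleteSpace E]
  {M : Type} [TopologicalSpace M] [ChartedSpace E M] [IsManifold 𝓘(ℝ, E) ∞ M] [T2Space M]
  [RiemannianBundle fun p : M => TangentSpace 𝓘(ℝ, E) p]
  [IsContMDiffRiemannianBundle 𝓘(ℝ, E) ∞ E fun p : M => TangentSpace 𝓘(ℝ, E) p]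

theorem inner_sum (hE : Module.finrank ℝ E = 4) {F : Fin 4 → SmoothField E M} {q : M}
    (hF : OrthonormalAt F q) (x y : TangentSpace 𝓘(ℝ, E) q) :
    ∑ j, inner ℝ x (F j q) * inner ℝ (F j q) y = inner ℝ x y := by
  have hc : Fintype.card (Fin 4) = Module.finrank ℝ (TangentSpace 𝓘(ℝ, E) q) := by
    rw [show Module.finrank ℝ (TangentSpace 𝓘(ℝ, E) q) = 4 from hE]; simp
  set bv := basisOfOrthonormalOfCardEqFinrank hF hc with hbv
  have ev : (bv : Fin 4 → TangentSpace 𝓘(ℝ, E) q) = fun i => F i q :=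
    coe_basisOfOrthonormalOfCardEqFinrank hF hc
  have hv' : Orthonormal ℝ bv := by rw [ev]; exact hF
  set ov := bv.toOrthonormalBasis hv' with hov
  have eov : (ov : Fin 4 → TangentSpace 𝓘(ℝ, E) q) = fun i => F i q := by
    rw [hov, Module.Basis.coe_toOrthonormalBasis, ev]
  have := ov.sum_inner_mul_inner x y
  rw [eov] at this
  exact this

/-- matrix of scalar products of two families of fields -/
def mat (A B : Fin 4 → SmoothField E M) (q : M) : Matrix (Fin 4) (Fin 4) ℝ :=
  Matrix.of fun i j => inner ℝ (A i q) (B j q)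

theorem mat_mul (hE : Module.finrank ℝ E = 4) (A C : Fin 4 → SmoothField E M)
    {B : Fin 4 → SmoothField E M} {q : M} (hB : OrthonormalAt B q) :
    mat A B q * mat B C q = mat A C q := by
  ext i j
  rw [Matrix.mul_apply]
  exact inner_sum hE hB _ _

theorem mat_self {A : Fin 4 → SmoothField E M} {q : M} (hA : OrthonormalAt A q) :
    mat A A q = 1 := by
  ext i j
  have := on_iff.1 hA i j
  rw [Matrix.one_apply]
  exact this

theorem mat_transpose (A B : Fin 4 → SmoothField E M) (q : M) :
    (mat A B q).transpose = mat B A q := by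
  ext i j
  exact real_inner_comm (B i q) (A j q)

theorem det_symm (A B : Fin 4 → SmoothField E M) (q : M) :
    (mat A B q).det = (mat B A q).det := by
  rw [← mat_transpose, Matrix.det_transpose]

theorem det_sq (hE : Module.finrank ℝ E = 4) {A B : Fin 4 → SmoothField E M} {q : M}
    (hA : OrthonormalAt A q) (hB : OrthonormalAt B q) :
    (mat A B q).det * (mat A B q).det = 1 := by
  conv_lhs => rw [det_symm A B q]
  rw [← det_symm A B q]
  nth_rewrite 2 [det_symm A B q]
  rw [← Matrix.det_mul, mat_mul hE A A hB, mat_self hA, Matrix.det_one]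

theorem det_ne (hE : Module.finrank ℝ E = 4) {A B : Fin 4 → SmoothField E M} {q : M}
    (hA : OrthonormalAt A q) (hB : OrthonormalAt B q) : (mat A B q).det ≠ 0 := by
  intro h0
  have := det_sq hE hA hB
  rw [h0] at this
  simp at this

theorem exists_det (A B : Fin 4 → SmoothField E M) :
    ∃ ρ : SF E M, ∀ q, ρ q = (mat A B q).det := by
  refine ⟨Matrix.det (Matrix.of fun i j => gVF (A i) (B j)), fun q => ?_⟩
  have h := (evM q : SF E M →ₐ[ℝ] ℝ).toRingHom.map_det (Matrix.of fun i j => gVF (A i) (B j))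
  exact h

theorem det_cont (A B : Fin 4 → SmoothField E M) : Continuous fun q => (mat A B q).det := by
  obtain ⟨ρ, hρ⟩ := exists_det A B
  have : (fun q => (mat A B q).det) = fun q => ρ q := funext fun q => (hρ q).symm
  rw [this]
  exact ρ.contMDiff.continuous

theorem sg_det_eventually {A B : Fin 4 → SmoothField E M} {q : M} (h0 : (mat A B q).det ≠ 0) :
    ∀ᶠ x in 𝓝 q, sg (mat A B x).det = sg (mat A B q).det := by
  rcases lt_or_gt_of_ne h0 with h | h
  · filter_upwards [(det_cont A B).continuousAt.eventually (gt_mem_nhds h)] with x hx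
    have hx' : (mat A B x).det < 0 := hx
    unfold sg
    rw [if_neg hx'.not_gt, if_neg h.not_gt]
  · filter_upwards [(det_cont A B).continuousAt.eventually (lt_mem_nhds h)] with x hx
    have hx' : 0 < (mat A B x).det := hx
    unfold sg
    rw [if_pos hx', if_pos h]

/-! ### the double covering -/

variable (F : M → Fin 4 → SmoothField E M)

/-- where the frame is orthonormal -/
def base (p : M) : Set M := interior {q | OrthonormalAt (F p) q}

theorem on_of_base {F : M → Fin 4 → SmoothField E M} {p q : M} (h : q ∈ base F p) :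
    OrthonormalAt (F p) q := (interior_subset h : q ∈ {q | OrthonormalAt (F p) q})

/-- the orientation bundle -/
def core (hE : Module.finrank ℝ E = 4) (hF : ∀ p, ∀ᶠ q in 𝓝 p, OrthonormalAt (F p) q) :
    FiberBundleCore M M ℤˣ where
  baseSet := base F
  isOpen_baseSet _ := isOpen_interior
  indexAt := id
  mem_baseSet_at p := mem_interior_iff_mem_nhds.2 (hF p)
  coordChange i j q s := sg (mat (F i) (F j) q).det * s
  coordChange_self i q hq s := by
    rw [mat_self (on_of_base hq), Matrix.det_one, sg_one, one_mul]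
  continuousOn_coordChange i j := by
    refine ContinuousOn.mul (fun x hx => ?_) continuousOn_snd
    have h1 := on_of_base hx.1.1
    have h2 := on_of_base hx.1.2
    have h3 := sg_det_eventually (det_ne hE h1 h2)
    have h4 : ∀ᶠ y : M × ℤˣ in 𝓝 x, sg (mat (F i) (F j) x.1).det = sg (mat (F i) (F j) y.1).det := by
      have := (continuous_fst.continuousAt (x := x)).eventually h3
      filter_upwards [this] with y hy
      exact hy.symm
    exact (continuousAt_const.congr h4).continuousWithinAt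
  coordChange_comp i j k q hq s := by
    have h1 := on_of_base hq.1.1
    have h2 := on_of_base hq.1.2
    have h3 := on_of_base hq.2
    have e : sg (mat (F i) (F k) q).det = sg (mat (F j) (F k) q).det * sg (mat (F i) (F j) q).det := by
      rw [sg_mul (det_ne hE h2 h3) (det_ne hE h1 h2), mul_comm (mat (F j) (F k) q).det,
        ← Matrix.det_mul, mat_mul hE (F i) (F k) h2]
    rw [e, mul_assoc]

variable {F}

/-- a simply connected manifold has a continuous choice of orientations -/
theorem exists_section [SimplyConnectedSpace M] (hE : Module.finrank ℝ E = 4)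
    (hF : ∀ p, ∀ᶠ q in 𝓝 p, OrthonormalAt (F p) q) :
    ∃ τ : M → ℤˣ, ∀ p, ∀ᶠ q in 𝓝 p,
      sg (mat (F q) (F p) q).det * τ q = τ p := by
  have hlp : LocallyPathConnectedSpace M := ChartedSpace.locallyPathConnectedSpace E M
  set Z := core F hE hF with hZ
  have hcov : IsCoveringMap (π ℤˣ Z.Fiber) := FiberBundle.isCoveringMap
  obtain ⟨a₀⟩ : Nonempty M := inferInstance
  obtain ⟨s, ⟨-, hs⟩, -⟩ := hcov.existsUnique_continuousMap_lifts (ContinuousMap.id M) a₀
    (⟨a₀, (1 : ℤˣ)⟩ : Z.TotalSpace) rfl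
  have hs' : ∀ q, (s q).1 = q := fun q => congrFun hs q
  have hs'' : ∀ q, ∃ t : ℤˣ, s q = (⟨q, t⟩ : Z.TotalSpace) := by
    intro q
    have h1 := hs' q
    rcases hsq : s q with ⟨a, t⟩
    rw [hsq] at h1
    cases h1
    exact ⟨t, rfl⟩
  choose τ hτ using hs''
  refine ⟨τ, fun p => ?_⟩
  have hc : ContinuousAt (fun q => ((Z.localTriv p) (s q)).2) p := by
    have h1 : ContinuousAt (Z.localTriv p) (s p) := by
      refine (Z.localTriv p).continuousAt ?_
      rw [(Z.localTriv p).mem_source]
      show (s p).1 ∈ base F p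
      rw [hs' p]
      exact mem_interior_iff_mem_nhds.2 (hF p)
    exact continuous_snd.continuousAt.comp (ContinuousAt.comp h1 s.continuous.continuousAt)
  have h2 : ∀ q, ((Z.localTriv p) (s q)).2 = sg (mat (F q) (F p) q).det * τ q := by
    intro q
    rw [hτ q]
    rfl
  simp only [h2] at hc
  have h3 : sg (mat (F p) (F p) p).det * τ p = τ p := by
    rw [mat_self (hF p).self_of_nhds, Matrix.det_one, sg_one, one_mul]
  have h4 := hc.eventually (mem_nhds_discrete.2 (mem_singleton _) :
    ({sg (mat (F p) (F p) p).det * τ p} : Set ℤˣ) ∈ 𝓝 _)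
  filter_upwards [h4] with q hq
  rw [← h3]
  exact hq

/-- the alternating form -/
def omF (F : M → Fin 4 → SmoothField E M) (τ : M → ℤˣ) (q : M) :
    TangentSpace 𝓘(ℝ, E) q [⋀^Fin 4]→ₗ[ℝ] ℝ :=
  (((τ q : ℤˣ) : ℤ) : ℝ) • (Matrix.detRowAlternating (n := Fin 4) (R := ℝ)).compLinearMap
    (LinearMap.pi fun j => (innerₗ (TangentSpace 𝓘(ℝ, E) q) (F q j q)))

theorem omF_apply (F : M → Fin 4 → SmoothField E M) (τ : M → ℤˣ) (X : Fin 4 → SmoothField E M)
    (q : M) : (omF F τ q fun i => X i q) = (((τ q : ℤˣ) : ℤ) : ℝ) * (mat X (F q) q).det := by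
  unfold omF
  show (((τ q : ℤˣ) : ℤ) : ℝ) * Matrix.det (Matrix.of fun i j => inner ℝ (F q j q) (X i q)) = _
  congr 2
  ext i j
  exact real_inner_comm (X i q) (F q j q)

theorem orientable_of_frames (hE : Module.finrank ℝ E = 4) [SimplyConnectedSpace M]
    (hF : ∀ p, ∀ᶠ q in 𝓝 p, OrthonormalAt (F p) q) :
    ∃ om : (p : M) → TangentSpace 𝓘(ℝ, E) p [⋀^Fin 4]→ₗ[ℝ] ℝ, NN.IsOrientation om := by
  obtain ⟨τ, hτ⟩ := exists_section hE hF
  refine ⟨omF F τ, fun X p => ?_, fun q h0 => ?_⟩
  · obtain ⟨ρ, hρ⟩ := exists_det X (F p)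
    have key : ContMDiffAt 𝓘(ℝ, E) 𝓘(ℝ) ∞ (fun q => (((τ p : ℤˣ) : ℤ) : ℝ) * ρ q) p :=
      contMDiffAt_const.mul (ρ.contMDiff p)
    refine key.congr_of_eventuallyEq ?_
    filter_upwards [hτ p, hF p] with q h1 h2
    have hq := (hF q).self_of_nhds
    rw [omF_apply, hρ, ← mat_mul hE X (F q) h2, Matrix.det_mul, ← h1, Units.val_mul, Int.cast_mul,
      sg_cast (det_sq hE hq h2), det_symm (F p) (F q)]
    ring
  · have hq := (hF q).self_of_nhds
    have h1 := omF_apply F τ (F q) q
    rw [h0, mat_self hq, Matrix.det_one, mul_one] at h1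
    rcases Int.units_eq_one_or (τ q) with h2 | h2 <;> · rw [h2] at h1; simp at h1

end

end Vale.Agent.P211.H555
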